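import Vale.Agent.P095.EqStmt

/-! Strong self-absorption, for the final statements. -/

namespace Vale.Agent.P095

universe u

open Vale.Agent.P101

/-- `E` is a C*-completion of `D ⊗ D`, and there is an isomorphism of `D` with `E` which is
approximately unitarily equivalent to the first factor embedding. -/
structure IsSelfTensor (D E : Type u) [CStarAlgebra D] [CStarAlgebra E] : Prop where
  iso : ∃ (i j : D →⋆ₐ[ℂ] E) (φ : D ≃⋆ₐ[ℂ] E), IsTensorCompletion i j ∧
    ∀ (S : Finset D) (ε : ℝ), 0 < ε → ∃ v ∈ unitary E, ∀ x ∈ S, ‖v * φ x * star v - i x‖ < ε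

/-- `D` is strongly self-absorbing. -/
structure IsStronglySelfAbsorbing (D : Type u) [CStarAlgebra D] : Prop where
  square : ∃ (E : Type u) (_ : CStarAlgebra E), IsSelfTensor D E

end Vale.Agent.P095
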